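import Vale.Agent.P057RL.Clo

/-!
Symmetric forms with an integer symmetrisation have a resolution.
-/

set_option linter.all false

open Matrix Finset
open Vale.Agent.P267.H775 Vale.Agent.P057G Vale.Agent.P057PC Vale.Agent.P057TP Vale.Agent.P057SY
open Vale.Agent.P057MA (Fm ln2 Nle Smo lin_comb mul_le_exp pow_le_exp two_le_exp)
open Vale.Agent.P057TE (sym_ok sym_cen sym_smo card_sl)

namespace Vale.Agent.P057RL

noncomputable section

/-- the dichotomy for biased forms, extra coordinates on proper faces -/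
def COREP (n τ : ℕ) : Prop :=
  ∃ c : ℕ, ∀ (V ι K K₁ A B : Type) [Fintype V] [DecidableEq V] [Fintype ι] [DecidableEq ι]
    [Fintype K] [DecidableEq K] [Fintype K₁] [DecidableEq K₁] [Fintype A] [Fintype B]
    (S : MS V ι) (X : Xt V ι K) (X₁ : Xt V ι K₁) (i : K₁ → K) (t : V)
    (θ : A → (ι ⊕ K → ℝ) → ℝ) (ψ : B → (ι ⊕ K₁ → ℝ) → ℝ) (ω Y : ℝ), Fintype.card V ≤ n → S.Ok →
    S.Cen → X.Ok S → (xt S X).Cen → X.Sz τ Y → (∀ k, X.fc k ≠ univ) →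
    X₁.Ok S → Function.Injective i →
    (∀ k, X.fc (i k) = X₁.fc k ∧ t ∉ X₁.fc k ∧ ∀ k', X.G (i k) (i k') = X₁.G k k') →
    (∀ k k', k' ∉ Set.range i → X.G (i k) k' = 0) →
    (∀ x k, X.g x (i k) = X₁.g (x ∘ Sum.map id i) k) → (c : ℝ) ≤ Y →
    (Fintype.card ι : ℝ) ≤ Real.exp Y → (Fintype.card A : ℝ) ≤ Y → (Fintype.card B : ℝ) ≤ Y →
    Smo S univ c (Real.exp (Y ^ c)) (Real.exp (-Y ^ c)) → Real.exp (-Y) ≤ ω → ω ≤ 1 →
    th (ω • X.G)⁻¹ 0 ≤ 1 + Real.exp (-(2 * Y)) →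
    (∀ a, (∀ v, Lin ((xt S X).st v) (θ a)) ∧
      Real.exp (-Y) * vl (xt S (X.sm ω)).G univ ≤ (xt S (X.sm ω)).bias univ (θ a)) →
    (∀ b, (∀ v, Lin ((xt S X₁).st v) (ψ b)) ∧ ∃ (cf : A → ℤ) (q : ℕ) (R : (ι → ℝ) → ℝ), 0 < q ∧
      (q : ℝ) ≤ Real.exp Y ∧ (∀ a, |(cf a : ℝ)| ≤ Real.exp Y) ∧ Fm S univ univ R ∧
      Nle S univ R (Real.exp Y) ∧ ∀ y : ι ⊕ K → ℤ, ln2 (xt S X) univ (toR y) ≤ Real.exp (-Y) →
        ∃ k : ℤ, q * ψ b (toR y ∘ Sum.map id i) =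
          ∑ a, cf a * θ a (toR y) + R (toR y ∘ Sum.inl) + k) →
    ∃ d₀ : ℕ, 0 < d₀ ∧ (d₀ : ℝ) ≤ Real.exp (Y ^ c) ∧ ∀ (d : ℕ) (lam Y' : ℝ), 0 < d → d₀ ∣ d →
      d * Real.exp (Y ^ c) ≤ lam → lam ≤ Real.exp Y' → Y ≤ Y' → Res S X₁ ψ t τ d lam (Y' ^ c)

theorem res_mono {V ι E A : Type} [Fintype V] [DecidableEq V] [Fintype ι] [DecidableEq ι]
    [Fintype E] [DecidableEq E] {S : MS V ι} {X : Xt V ι E} {ψ : A → (ι ⊕ E → ℝ) → ℝ} {t : V}
    {τ d : ℕ} {lam Y Y' : ℝ} (h : Res S X ψ t τ d lam Y) (hY : Y ≤ Y') :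
    Res S X ψ t τ d lam Y' := by
  obtain ⟨K, _, _, X', P, a1, a2, a3, a4, a5, a6, a7⟩ := h
  have e := Real.exp_le_exp.2 hY
  exact ⟨K, _, _, X', P, a1, a2, ⟨a3.tr, a3.card.trans hY, a3.sep, a3.cx.trans e⟩, a4, a5, a6,
    fun a => (a7 a).mono e⟩

theorem pow_near_one {x D Y : ℝ} {n : ℕ} (hx : 0 ≤ x) (h : x ≤ 1 + Real.exp (-Y ^ 2))
    (hn : (n : ℝ) ≤ D) (hD : 1 ≤ D) (hY : 2 * D + 1 ≤ Y) :
    x ^ n ≤ 1 + Real.exp (-(2 * (D * Y))) := by
  have p := Real.exp_pos (-Y ^ 2)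
  have h1 := pow_le_exp hx (h.trans ((add_comm _ _).trans_le (Real.add_one_le_exp _))) p.le hn
    le_rfl
  have h2 : 2 * D * Real.exp (-Y ^ 2) ≤ Real.exp (-(2 * (D * Y))) :=
    (mul_le_exp p.le (show 2 * D ≤ Real.exp (2 * D) by linarith [Real.add_one_le_exp (2 * D)])
      le_rfl).trans (Real.exp_le_exp.2 (by nlinarith))
  have h3 : Real.exp (-(2 * (D * Y))) ≤ 1 := Real.exp_le_one_iff.2 (by nlinarith)
  have h4 : 0 ≤ D * Real.exp (-Y ^ 2) := by positivity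
  have h5 := (abs_le.1 (Real.abs_exp_sub_one_le (x := D * Real.exp (-Y ^ 2))
    (by rw [abs_of_nonneg h4]; linarith))).2
  rw [abs_of_nonneg h4] at h5
  linarith

theorem num1 {c D : ℕ} {Y y : ℝ} (D1 : (1 : ℝ) ≤ D) (hY : ((2 * c + 2 * D + 6 : ℕ) : ℝ) ≤ Y)
    (hy : Y ≤ y) : y ≤ D * y ∧ (D * y) ^ c ≤ y ^ (2 * c + 2 * D + 6) ∧
      2 * (D * y) ^ c + 4 ≤ y ^ (2 * c + 2 * D + 6) ∧ 0 ≤ (D * y) ^ c := by
  have c0 : (0 : ℝ) ≤ c := Nat.cast_nonneg c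
  push_cast at hY
  have h1 : (D * y) ^ c ≤ y ^ (2 * c) := by
    rw [pow_mul]
    exact pow_le_pow_left₀ (by nlinarith) (by nlinarith) c
  have h2 : y ^ (2 * c + 1) ≤ y ^ (2 * c + 2 * D + 6) :=
    pow_le_pow_right₀ (by linarith) (by omega)
  have h3 : 0 ≤ y ^ (2 * c) := pow_nonneg (by linarith) _
  have h4 : 1 ≤ (D * y) ^ c := one_le_pow₀ (by nlinarith)
  have h5 : 6 * (D * y) ^ c ≤ y ^ (2 * c + 2 * D + 6) := by rw [pow_succ] at h2; nlinarith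
  exact ⟨by nlinarith, by linarith, by linarith, by linarith⟩

theorem num2 {s c D : ℕ} {Y v : ℝ} (D3 : 3 * (s + 1 : ℝ) ≤ D)
    (hY : ((2 * c + 2 * D + 6 : ℕ) : ℝ) ≤ Y) (hv : v ≤ s + 1) :
    c ≤ D * Y ∧ Y + (s + 1) * 1 ≤ D * Y ∧ v * c ≤ Y ^ (2 * c + 2 * D + 6) ∧ 2 * D + 1 ≤ Y ∧
      D + Y ≤ D * Y ∧ D ≤ D * Y ∧ 0 ≤ Y := by
  have c0 : (0 : ℝ) ≤ c := Nat.cast_nonneg c
  have s0 : (0 : ℝ) ≤ s := Nat.cast_nonneg s
  push_cast at hY
  have k4 : Y ^ 2 ≤ Y ^ (2 * c + 2 * D + 6) := pow_le_pow_right₀ (by linarith) (by omega)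
  exact ⟨by nlinarith, by nlinarith, by nlinarith, by linarith, by nlinarith, by nlinarith,
    by linarith⟩

theorem exp_four : (25 : ℝ) ≤ Real.exp 4 := by
  have := Real.sum_le_exp_of_nonneg (x := 4) (by norm_num) 5
  norm_num [sum_range_succ, Nat.factorial] at this
  linarith

theorem rel (s τ : ℕ) (hC : COREP (s + 1) τ) : REL s τ := by
  obtain ⟨c, hc⟩ := hC
  obtain ⟨D, hD, D3, DP⟩ : ∃ D : ℕ, (D : ℝ) = (s + 1).factorial * (3 * (s + 1)) ∧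
      3 * (s + 1 : ℝ) ≤ D ∧ ((s + 1).factorial : ℝ) ≤ D := by
    have f1 : (1 : ℝ) ≤ (s + 1).factorial := by exact_mod_cast Nat.factorial_pos _
    have s0 : (0 : ℝ) ≤ s := Nat.cast_nonneg s
    refine ⟨(s + 1).factorial * (3 * (s + 1)), ?_, ?_, ?_⟩ <;> push_cast <;> nlinarith
  have D1 : (1 : ℝ) ≤ D := by linarith [(Nat.cast_nonneg s : (0 : ℝ) ≤ s)]
  have e4 : (D : ℝ) ≤ Real.exp D := by linarith [Real.add_one_le_exp (D : ℝ)]
  refine ⟨2 * c + 2 * D + 6, ?_⟩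
  intro N T V K B _ _ _ _ _ m q X t ψ ω Y hT hV hX hcen hsz ht hY hι hB hLF hω hω1 hth hq hqY hψ
  classical
  have hV' : (Fintype.card V : ℝ) ≤ s + 1 := by exact_mod_cast hV
  have hP : (Fintype.card (Equiv.Perm V) : ℝ) ≤ (s + 1).factorial := by
    rw [Fintype.card_perm]; exact_mod_cast Nat.factorial_le hV
  obtain ⟨k1, k2, k3, k4⟩ := num1 D1 hY le_rfl
  obtain ⟨n1, n2, n3, n4, n5, n6, n7⟩ := num2 D3 hY hV'
  have e1 := Real.exp_le_exp.2 k1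
  have e2 := Real.exp_le_exp.2 (neg_le_neg k1)
  have e3 := Real.exp_le_exp.2 k2
  have ω0 := (Real.exp_pos _).trans_le hω
  have hS : (S0 T V m).Ok := sym_ok hT (fun _ _ _ _ => trivial) (by norm_num)
  have hl : ∀ b v, Lin ((xt (S0 T V m) X).st v) fun x => q * ψ b x := fun b v => by
    simpa only [zero_mul, add_zero] using lin_comb ((hψ b).1 v) ((hψ b).1 v) q 0
  obtain ⟨cf, c1, c2⟩ := exists_cf t
  refine (hc V _ (Equiv.Perm V × K) K (B × Equiv.Perm V × {w // w ≠ t}) B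
    (S0 T V m) (X.clo id) X (Prod.mk 1) t (fun a x => q * ψ a.1 (cpr id a.2.1 x) -
      q * ψ a.1 (cpr id (a.2.1 * Equiv.swap t a.2.2) x)) ψ ω (D * Y) hV hS
    (P057CO.cen_base hcen) (ok_clt hX id 0) (cen_clo hcen id) (sz_clo hX id hsz (hP.trans DP))
    (fun k h => ht k.2 ((mem_map' _).1 (h.ge (mem_univ (k.1 t))))) hX
    (Prod.mk_right_injective 1) (fun k => ⟨Finset.map_refl, ht k, fun _ => if_pos rfl⟩)
    (fun k k' hk => if_neg fun h => hk ⟨k'.2, Prod.ext h rfl⟩)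
    (fun x k => congrArg (X.g · k) (funext fun j => by
      rcases j with j | j
      exacts [congrArg (fun k => x (Sum.inl k)) (pa_one j), rfl]))
    n1 ?_ ?_ (hB.trans k1) ?_ (e2.trans hω) hω1 ?_ (fun a => ⟨fun v => ?_, ?_⟩)
    fun b => ⟨(hψ b).1, ?_⟩).imp fun d ⟨d1, d2, d3⟩ =>
      ⟨d1, d2.trans e3, fun d' lam Y' a1 a2 a3 a4 a5 => res_mono (d3 d' lam (D * Y') a1 a2
        ((mul_le_mul_of_nonneg_left e3 (Nat.cast_nonneg _)).trans a3)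
        (a4.trans (Real.exp_le_exp.2 (num1 D1 hY a5).1))
        (mul_le_mul_of_nonneg_left a5 (Nat.cast_nonneg _))) (num1 D1 hY a5).2.1⟩
  · refine (Nat.cast_le.2 (card_sl fun _ _ _ _ => trivial)).trans ?_
    push_cast
    exact (mul_le_exp (by positivity) hι (pow_le_exp zero_le_two two_le_exp zero_le_one hV'
      le_rfl)).trans (Real.exp_le_exp.2 n2)
  · have h1 : (Fintype.card {w // w ≠ t} : ℝ) ≤ 3 * (s + 1) :=
      (Nat.cast_le.2 (Fintype.card_subtype_le _)).trans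
        (hV'.trans (le_mul_of_one_le_left (by positivity) (by norm_num)))
    rw [Fintype.card_prod, Fintype.card_prod, mul_comm (D : ℝ), hD, Nat.cast_mul, Nat.cast_mul]
    exact mul_le_mul hB (mul_le_mul hP h1 (Nat.cast_nonneg _) (Nat.cast_nonneg _))
      (by positivity) n7
  · intro C _ _ c0 hC
    exact (sym_smo hT (fun _ _ _ _ => trivial) hLF n3 (by norm_num) (Real.exp_pos _)
      ((mul_le_exp (by norm_num) (pow_le_exp (t := 2) (Real.exp_pos _).le le_rfl k4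
        (by norm_num) le_rfl) exp_four).trans (Real.exp_le_exp.2 k3)) C c0 hC).trans
      (add_le_add le_rfl (Real.exp_le_exp.2 (neg_le_neg k2)))
  · rw [smul_cG]
    exact (th_cG (hX.pd.smul ω0)).trans (pow_near_one (th_nonneg _ _) hth (hP.trans DP) D1 n4)
  · simpa only [one_mul, neg_mul, ← sub_eq_add_neg] using lin_comb (lin_cpr id a.2.1 (hl a.1) v)
      (lin_cpr id (a.2.1 * Equiv.swap t a.2.2) (hl a.1) v) 1 (-1)
  · exact (mul_le_mul_of_nonneg_right e2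
      (vl_pos (P057CO.ok_xt hS (ok_sm (ok_clt hX id 0) ω0)).pd _).le).trans
      (bias_clo hT hX hcen hsz.tr ω0 (hl a.1) a.2.2.2 ((hψ a.1).2.2 _ a.2.2.2) a.2.1)
  · obtain ⟨I, R, -, i2, r1, r2, h⟩ := (hψ b).2.1
    refine ⟨fun a => if a.1 = b then cf a.2 else 0, Fintype.card (Equiv.Perm V) * q, R,
      Nat.mul_pos Fintype.card_pos hq, ?_, fun a => ?_, r1, r2.mono e1, fun y hy => ?_⟩
    · rw [Nat.cast_mul]
      exact (mul_le_exp (Nat.cast_nonneg _) ((hP.trans DP).trans e4) hqY).trans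
        (Real.exp_le_exp.2 n5)
    · beta_reduce
      split_ifs
      · refine (c1 _).trans (le_trans ?_ (e4.trans (Real.exp_le_exp.2 n6)))
        rw [hD]
        gcongr
      · simp [(Real.exp_pos _).le]
    · obtain ⟨n, hn⟩ := i2 (y ∘ Sum.inl)
      have h1 := c2 fun ρ => q * ψ b (cpr id ρ (toR y))
      rw [h y (hy.trans (e2.trans_eq (Real.exp_neg Y))),
        show I (toR y ∘ Sum.inl) = n from hn, show cpr id 1 (toR y) =
          toR y ∘ Sum.map id (Prod.mk 1) from funext fun j => by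
            rcases j with j | j
            exacts [congrArg (fun k => toR y (Sum.inl k)) (pa_one j), rfl]] at h1
      refine ⟨n, ?_⟩
      rw [Fintype.sum_prod_type, sum_eq_single b (fun b' _ hb => by simp [hb]) (by simp)]
      simp only [if_true]
      rw [Nat.cast_mul, mul_assoc, h1]
      ring

end

end Vale.Agent.P057RL
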