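import Vale.Agent.P057SY.Plan
import Vale.Agent.P057CO.Xt

/-!
Permuted copies of extra coordinates over the symbol cube.
-/

set_option linter.all false

open Matrix Finset
open scoped Kronecker
open Vale.Agent.P267.H775 Vale.Agent.P057G Vale.Agent.P057PC Vale.Agent.P057TP Vale.Agent.P057SY
open Vale.Agent.P057MA (On cx bias_image vl_image cx_biUnion cx_image lin_comb lv_lt)
open Vale.Agent.P057TE (SL sym fr cv coeff_sel Gam_fr sym_ok sym_cen)
open Vale.Agent.P057CO (bias_mono ok_xt)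

namespace Vale.Agent.P057RL

noncomputable section

section path

variable {V : Type} [Fintype V] [DecidableEq V] {t : V} {n n' : ℕ} {ρ : Equiv.Perm V}

/-- `ρ` is reached from the identity by at most `n` transpositions through `t` -/
def Pth (t : V) (n : ℕ) (ρ : Equiv.Perm V) : Prop :=
  ∃ cf : Equiv.Perm V × {w // w ≠ t} → ℤ, (∀ a, |cf a| ≤ n) ∧ ∀ f : Equiv.Perm V → ℝ,
    f 1 - f ρ = ∑ a, cf a * (f a.1 - f (a.1 * Equiv.swap t a.2))

theorem Pth.mono (h : Pth t n ρ) (hn : n ≤ n') : Pth t n' ρ :=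
  h.imp fun _ h => ⟨fun a => (h.1 a).trans (Nat.cast_le.2 hn), h.2⟩

theorem pth_one (t : V) (n : ℕ) : Pth t n 1 := ⟨0, fun _ => by simp, fun _ => by simp⟩

theorem Pth.step (h : Pth t n ρ) (w : V) : Pth t (n + 1) (ρ * Equiv.swap t w) := by
  by_cases hw : w = t
  · rw [hw, Equiv.swap_self, Equiv.Perm.mul_refl]
    exact h.mono (Nat.le_succ n)
  · obtain ⟨cf, h1, h2⟩ := h
    refine ⟨cf + Pi.single (ρ, ⟨w, hw⟩) 1, fun a => (abs_add_le _ _).trans ?_, fun f => ?_⟩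
    · push_cast
      refine add_le_add (h1 a) ?_
      rw [Pi.single_apply]
      split_ifs <;> simp
    · simp [add_mul, sum_add_distrib, ← h2, Pi.single_apply]

theorem Pth.swap (h : Pth t n ρ) {u v : V} (huv : u ≠ v) :
    Pth t (n + 3) (ρ * Equiv.swap u v) := by
  by_cases hv : v = t
  · rw [hv, Equiv.swap_comm]
    exact (h.step u).mono (by omega)
  · have := ((h.step u).step v).step u
    rwa [mul_assoc, mul_assoc, ← mul_assoc (Equiv.swap t u), Equiv.swap_comm t v,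
      Equiv.swap_mul_swap_mul_swap hv huv.symm] at this

theorem pth (t : V) : ∀ (n : ℕ) (ρ : Equiv.Perm V), ρ.support.card ≤ n → Pth t (3 * n) ρ := by
  intro n
  induction n with
  | zero =>
    intro ρ h
    rw [Equiv.Perm.card_support_eq_zero.1 (Nat.le_zero.1 h)]
    exact pth_one t _
  | succ n ih =>
    intro ρ h
    by_cases h1 : ρ = 1
    · rw [h1]; exact pth_one t _
    obtain ⟨x, hx⟩ : ∃ x, ρ x ≠ x := not_forall.1 fun h => h1 (Equiv.ext h)
    have h2 := (ih _ (Nat.le_of_lt_succ ((Equiv.Perm.card_support_swap_mul hx).trans_le h))).swap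
      (u := ρ⁻¹ x) (v := x) fun e => hx (by rw [← Equiv.Perm.inv_eq_iff_eq.1 e])
    rwa [mul_assoc, Equiv.mul_swap_eq_swap_mul, show ρ (ρ⁻¹ x) = x from ρ.apply_symm_apply x,
      Equiv.swap_mul_self_mul] at h2

theorem exists_cf (t : V) : ∃ cf : Equiv.Perm V × {w // w ≠ t} → ℤ,
    (∀ a, |(cf a : ℝ)| ≤ Fintype.card (Equiv.Perm V) * (3 * Fintype.card V)) ∧
    ∀ f : Equiv.Perm V → ℝ, Fintype.card (Equiv.Perm V) * f 1 =
      ∑ a, cf a * (f a.1 - f (a.1 * Equiv.swap t a.2)) + ∑ ρ, f ρ := by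
  choose cf h1 h2 using fun ρ => pth t (Fintype.card V) ρ (card_le_univ _)
  refine ⟨∑ ρ, cf ρ, fun a => ?_, fun f => ?_⟩
  · have := (abs_sum_le_sum_abs _ _).trans (sum_le_card_nsmul univ _ _ fun ρ _ => h1 ρ a)
    rw [Finset.sum_apply]
    rw [nsmul_eq_mul, card_univ] at this
    exact_mod_cast this
  · simp only [Finset.sum_apply, Int.cast_sum, sum_mul]
    rw [sum_comm]
    simp [← h2]

end path

section emb

variable {ι ι' R K : Type} [DecidableEq ι] [DecidableEq ι'] {r : Finset ι} {r' : Finset ι'}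
  {e : ι → ι'} {θ : (ι → ℝ) → ℝ}

theorem mix_comp (h : ∀ i, e i ∈ r' ↔ i ∈ r) (x y : ι' → ℝ) :
    mix r' x y ∘ e = mix r (x ∘ e) (y ∘ e) := by
  funext k
  simp only [Function.comp, mix, h]

theorem aff_emb (h : ∀ i, e i ∈ r' ↔ i ∈ r) (hθ : Aff r θ) : Aff r' fun z => θ (z ∘ e) :=
  fun y => by
    simp only [mix_comp h]
    exact ⟨fun a b => (hθ _).map_add _ _, fun a b => (hθ _).map_smul a _⟩

theorem lin_emb (h : ∀ i, e i ∈ r' ↔ i ∈ r) (hθ : Lin r θ) : Lin r' fun z => θ (z ∘ e) :=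
  fun y => by
    simp only [mix_comp h]
    exact ⟨fun a b => (hθ _).map_add _ _, fun a b => (hθ _).map_smul a _⟩

variable [Fintype R] [DecidableEq R] [Fintype K] [DecidableEq K] {G : Matrix K K ℝ}

/-- orthogonal copies of a Gram matrix -/
abbrev cG (R : Type) [DecidableEq R] (G : Matrix K K ℝ) : Matrix (R × K) (R × K) ℝ :=
  Matrix.of fun e e' => if e.1 = e'.1 then G e.2 e'.2 else 0

theorem pd_cG (hG : G.PosDef) : (cG R G).PosDef := by
  have : cG R G = (1 : Matrix R R ℝ) ⊗ₖ G := by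
    ext a b
    simp [one_apply]
  rw [this]
  exact PosDef.one.kronecker hG

theorem smul_cG (ω : ℝ) : ω • cG R G = cG R (ω • G) := by
  ext a b
  simp

theorem qq_cG (x : R × K → ℝ) : qq (cG R G) x = ∑ a, qq G fun k => x (a, k) := by
  simp [qq, dotProduct, mulVec, Fintype.sum_prod_type]

theorem cx_univ (G : Matrix K K ℝ) : cx G univ = th G⁻¹ 0 := by
  let a : K ≃ ↥(univ : Finset K) := ⟨fun j => ⟨j, mem_univ j⟩, fun j => j.1, fun _ => rfl,
    fun _ => rfl⟩
  have e : G = (blk G univ).submatrix a a := rfl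
  conv_rhs => rw [e, inv_submatrix_equiv]
  unfold cx th
  rw [← (Equiv.arrowCongr a (Equiv.refl ℤ)).tsum_eq]
  refine tsum_congr fun z => ?_
  unfold gs
  rw [← qq_equiv a]
  congr 4

theorem th_cG (hG : G.PosDef) : th (cG R G)⁻¹ 0 ≤ th G⁻¹ 0 ^ Fintype.card R := by
  have k : ∀ {L : Type} [Fintype L] [DecidableEq L] {H : Matrix L L ℝ}, H.PosDef →
      (⟨fun _ => ∅, fun _ => 0, H, fun _ _ => 0⟩ : MS Unit L).Ok := fun h =>
    ⟨h, fun _ _ _ => ⟨rfl, rfl⟩, fun _ _ _ _ => rfl, fun _ _ h => absurd h (notMem_empty _)⟩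
  have s1 : ∀ a : R, Sat (cG R G) (univ.image (Prod.mk a)) := fun a i j hi hj => by
    obtain ⟨k, -, rfl⟩ := mem_image.1 hi
    exact if_neg fun h => hj (mem_image.2 ⟨j.2, mem_univ _, Prod.ext h rfl⟩)
  have h1 := (cx_biUnion (k (pd_cG (R := R) hG)) univ _ s1).2
  have h2 : univ.biUnion (fun a : R => (univ : Finset K).image (Prod.mk a)) = univ := by
    ext a; simp
  have h3 : ∀ a : R, cx (cG R G) (univ.image (Prod.mk a)) = cx G univ := fun a =>
    cx_image (k hG) (k (pd_cG hG)) (Prod.mk_right_injective a)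
      (fun _ _ _ h => absurd (mem_univ _) h) (s1 a) fun _ _ _ _ => if_pos rfl
  simpa only [h2, h3, cx_univ, prod_const, card_univ] using h1

end emb

variable {T : Tow} {V K R : Type} {m s : ℕ} {N : ℝ}

theorem pa_one (k : SA T V m) : pa 1 k = k :=
  Subtype.ext (Prod.ext rfl Finset.map_refl)

theorem pa_mul (ρ ρ' : Equiv.Perm V) (k : SA T V m) : pa ρ (pa ρ' k) = pa (ρ * ρ') k :=
  Subtype.ext (Prod.ext rfl (Finset.map_map _ _ _))

theorem pa_bij (ρ : Equiv.Perm V) : Function.Bijective (pa ρ : SA T V m → SA T V m) :=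
  Function.bijective_iff_has_inverse.2 ⟨pa ρ⁻¹, fun k => by rw [pa_mul, inv_mul_cancel, pa_one],
    fun k => by rw [pa_mul, mul_inv_cancel, pa_one]⟩

/-- the labels and extra coordinates of the copy `a` -/
def em (r : R → Equiv.Perm V) (a : R) : SA T V m ⊕ K → SA T V m ⊕ R × K :=
  Sum.map (pa (r a)) (Prod.mk a)

theorem cpr_eq (r : R → Equiv.Perm V) (a : R) (x : SA T V m ⊕ R × K → ℝ) :
    cpr r a x = x ∘ em r a := by
  funext j; rcases j with j | j <;> rfl

variable [Fintype V] [DecidableEq V]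

theorem p_pa (ρ : Equiv.Perm V) (x : SA T V m → ℝ) (k : SA T V m) :
    (S0 T V m).p x (pa ρ k) = (S0 T V m).p (x ∘ pa ρ) k := by
  classical
  have h1 : ∀ b, P057ST.sb (P057ST.sel ρ) ((fr SL.cd SL.fc 0).pt x b) =
      (fr SL.cd SL.fc 0).pt (x ∘ pa ρ) b := fun b => by
    ext μ
    rw [coeff_sel ρ.injective, Cf.coeff_pt, Cf.coeff_pt]
    refine (Fintype.sum_bijective _ (pa_bij ρ) _ _ fun i => ?_).symm
    refine if_congr (and_congr Iff.rfl ?_) rfl rfl
    exact (Multiset.map_injective ρ.injective).eq_iff.symm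
  refine congrArg (· + (0 : ℝ)) ?_
  change (Cf.val _ _ _ k.cd).coeff (k.fc.val.map ρ) = (Cf.val _ _ _ k.cd).coeff k.fc.val
  rw [← coeff_sel ρ.injective, Cf.val, Cf.val, ← funext h1, ← MvPolynomial.comp_aeval_apply]
  simp [fr]

theorem G_pa (ρ : Equiv.Perm V) (k k' : SA T V m) :
    (S0 T V m).G (pa ρ k) (pa ρ k') = (S0 T V m).G k k' := by
  refine congrArg ((25 : ℝ) * ·) ?_
  rw [Gam_fr, Gam_fr]
  exact if_congr map_inj rfl rfl

variable [Fintype K] [DecidableEq K] [Fintype R] [DecidableEq R] {X : Xt V (SA T V m) K}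

/-- permuted copies with shifted tiers -/
abbrev clt (X : Xt V (SA T V m) K) (r : R → Equiv.Perm V) (o : R → ℕ) :
    Xt V (SA T V m) (R × K) :=
  ⟨(X.clo r).fc, fun e => X.tr e.2 + o e.1, (X.clo r).G, (X.clo r).g⟩

theorem mem_em (r : R → Equiv.Perm V) (a : R) (v : V) (j : SA T V m ⊕ K) :
    em r a j ∈ (xt (S0 T V m) (X.clo r)).st v ↔ j ∈ (xt (S0 T V m) X).st ((r a).symm v) := by
  rw [MS.mem_st, MS.mem_st]
  rcases j with j | j <;> exact mem_map_equiv

theorem lin_cpr (r : R → Equiv.Perm V) (a : R) {ψ : (SA T V m ⊕ K → ℝ) → ℝ}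
    (h : ∀ v, Lin ((xt (S0 T V m) X).st v) ψ) (v : V) :
    Lin ((xt (S0 T V m) (X.clo r)).st v) fun x => ψ (cpr r a x) := by
  simpa only [cpr_eq] using lin_emb (mem_em r a v) (h _)

theorem ok_clt (h : X.Ok (S0 T V m)) (r : R → Equiv.Perm V) (o : R → ℕ) :
    (clt X r o).Ok (S0 T V m) := by
  refine ⟨fun e => (h.ne e.2).map, pd_cG h.pd, fun e e' h0 => ?_, fun e x x' h1 h2 =>
    h.loc e.2 _ _ (fun i hi => h1 _ (map_subset_map.2 hi)) fun e' h3 h4 =>
      h2 (e.1, e') (map_subset_map.2 h3) (Nat.add_lt_add_right h4 _), fun v e => ?_⟩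
  · have h1 : e.1 = e'.1 := by_contra fun h1 => h0 (if_neg h1)
    have h2 := h.ort e.2 e'.2 fun h2 => h0 ((if_pos h1).trans h2)
    exact ⟨by simp only [h1, h2.1], by simp only [h1, h2.2]⟩
  · simp only [cpr_eq]
    exact aff_emb (mem_em r e.1 v) (h.aff _ e.2)

theorem cen_clo (h : (xt (S0 T V m) X).Cen) (r : R → Equiv.Perm V) :
    (xt (S0 T V m) (X.clo r)).Cen := by
  have hc := P057CO.cen_base h
  refine ⟨fun a => ?_, fun v a hv y => ?_⟩
  · rcases a with i | e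
    exacts [hc.ne i, (h.ne (Sum.inr e.2)).map]
  · rcases a with i | e
    · exact (congrArg ((S0 T V m).p · i) (P057CO.fmp_inl.kill v y)).trans (hc.zero v i hv _)
    · change X.g (cpr r e.1 _) e.2 = 0
      rw [cpr_eq, mix_comp (mem_em r e.1 v)]
      exact h.zero _ (Sum.inr e.2) (mem_map_equiv.1 hv) _

theorem sz_clo (h : X.Ok (S0 T V m)) (r : R → Equiv.Perm V) {τ : ℕ} {Y D : ℝ} (hs : X.Sz τ Y)
    (hD : (Fintype.card R : ℝ) ≤ D) : (X.clo r).Sz τ (D * Y) := by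
  have y0 : 0 ≤ Y := (Nat.cast_nonneg _).trans hs.card
  refine ⟨fun e => hs.tr e.2, ?_, fun k hk => ?_, (th_cG h.pd).trans
    (P057MA.pow_le_exp (th_nonneg _ _) hs.cx y0 hD le_rfl)⟩
  · rw [Fintype.card_prod, Nat.cast_mul]
    exact mul_le_mul hD hs.card (Nat.cast_nonneg _) ((Nat.cast_nonneg _).trans hD)
  · obtain ⟨a, ha⟩ := Function.ne_iff.1 hk
    rw [qq_cG]
    exact (hs.sep (fun j => k (a.1, j)) (Function.ne_iff.2 ⟨a.2, ha⟩)).trans
      (single_le_sum (f := fun a => qq X.G fun j => toR k (a, j))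
        (fun _ _ => qq_nonneg h.pd.posSemidef _) (mem_univ a.1))

theorem ok_sm {ι : Type} [Fintype ι] [DecidableEq ι] {S : MS V ι} {X : Xt V ι K} (h : X.Ok S)
    {ω : ℝ} (hω : 0 < ω) : (X.sm ω).Ok S :=
  ⟨h.ne, h.pd.smul hω, fun e e' h0 => h.ort e e' (right_ne_zero_of_mul h0), h.loc, h.aff⟩

/-- the bias of the antisymmetric part passes to the system of all permuted copies -/
theorem bias_clo (hT : T.Ok s N) (h : X.Ok (S0 T V m)) (hc : (xt (S0 T V m) X).Cen) {τ : ℕ}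
    (hτ : ∀ e, X.tr e < τ) {ω δ : ℝ} (hω : 0 < ω) {ψ : (SA T V m ⊕ K → ℝ) → ℝ}
    (hψ : ∀ v, Lin ((xt (S0 T V m) X).st v) ψ) {t w : V} (hw : w ≠ t) (hb : Sb X ψ t w ω δ)
    (ρ : Equiv.Perm V) : δ * vl (xt (S0 T V m) ((X.clo id).sm ω)).G univ ≤
      (xt (S0 T V m) ((X.clo id).sm ω)).bias univ
        fun x => ψ (cpr id ρ x) - ψ (cpr id (ρ * Equiv.swap t w) x) := by
  classical
  have hS : (S0 T V m).Ok := sym_ok hT (fun _ _ _ _ => trivial) (by norm_num)
  let o : Equiv.Perm V → ℕ := fun σ => if ∃ c, ρ * sw t w c = σ then 0 else τ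
  let e : SA T V m ⊕ Bool × K → SA T V m ⊕ Equiv.Perm V × K :=
    Sum.map (pa ρ) (Prod.map (fun c => ρ * sw t w c) id)
  have i1 : Function.Injective fun c => ρ * sw t w c := by
    have : Equiv.swap t w ≠ 1 := fun h => hw (Equiv.swap_eq_one_iff.1 h).symm
    intro c c' h
    cases c <;> cases c' <;> simp_all [sw, eq_comm]
  have i2 : Function.Injective e := (pa_bij ρ).1.sumMap (i1.prodMap Function.injective_id)
  have e1 : ∀ c z, cpr (sw t w) c (z ∘ e) = cpr id (ρ * sw t w c) z := fun c z => by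
    funext j
    rcases j with j | j
    exacts [congrArg (fun k => z (Sum.inl k)) (pa_mul _ _ j), rfl]
  have m1 : ∀ j, j ∉ univ.image e → ∃ σ k, j = Sum.inr (σ, k) ∧ ¬ ∃ c, ρ * sw t w c = σ := by
    rintro (j | ⟨σ, k⟩) hj
    · obtain ⟨k, rfl⟩ := (pa_bij ρ).2 j
      exact absurd (mem_image_of_mem e (mem_univ (Sum.inl k))) hj
    · exact ⟨σ, k, rfl, fun ⟨c, hc⟩ => hj (hc ▸ mem_image_of_mem e (mem_univ (Sum.inr (c, k))))⟩
  have h' := ok_xt hS (ok_sm (ok_clt h id o) hω)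
  have hG : ∀ i ∈ univ, ∀ j ∈ univ, (xt (S0 T V m) ((clt X id o).sm ω)).G (e i) (e j)
      = (xt (S0 T V m) ((X.clo (sw t w)).sm ω)).G i j := by
    rintro (i | i) - (j | j) -
    exacts [G_pa ρ i j, rfl, rfl, congrArg (ω * ·) (if_congr i1.eq_iff rfl rfl)]
  have hp : ∀ z, ∀ i ∈ univ, (xt (S0 T V m) ((clt X id o).sm ω)).p z (e i)
      = (xt (S0 T V m) ((X.clo (sw t w)).sm ω)).p (z ∘ e) i := by
    rintro z (i | i) -
    exacts [p_pa ρ _ i, congrArg (X.g · i.2) (e1 i.1 z).symm]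
  have h1 := bias_mono h' ⟨(cen_clo hc id).ne, (cen_clo hc id).zero⟩ (q' := univ.image e) ?_
    (θ := fun z => ψ (cpr (sw t w) false (z ∘ e)) - ψ (cpr (sw t w) true (z ∘ e))) (fun v => ?_)
    (fun z z' hz => by simp only [show z ∘ e = z' ∘ e from
      funext fun i => hz _ (mem_image_of_mem e (mem_univ i))]) univ
    (fun _ _ _ h => absurd (mem_univ _) h) (subset_univ _) ?_
  · rw [bias_image i2 hG hp fun x => ψ (cpr (sw t w) false x) - ψ (cpr (sw t w) true x),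
      vl_image i2 hG] at h1
    have h2 := ((le_div_iff₀ (vl_pos (ok_xt hS (ok_sm (ok_clt h (sw t w) 0) hω)).pd _)).2
      hb).trans h1
    have h3 := (le_div_iff₀ (vl_pos h'.pd _)).1 h2
    simp only [e1, sw, cond, mul_one] at h3
    exact h3
  · intro i j hi hj
    obtain ⟨σ, k, rfl, hσ⟩ := m1 j hj
    obtain ⟨i | i, -, rfl⟩ := mem_image.1 hi
    exacts [rfl, (congrArg (ω * ·) (if_neg fun h => hσ ⟨i.1, h⟩)).trans (mul_zero ω)]
  · have h3 :=
      lin_comb (lin_cpr id (ρ * sw t w false) hψ v) (lin_cpr id (ρ * sw t w true) hψ v) 1 (-1)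
    simp only [e1, one_mul, neg_mul, ← sub_eq_add_neg] at h3 ⊢
    exact h3
  · intro i hi j _ hd
    by_contra hj
    obtain ⟨σ, k, rfl, hσ⟩ := m1 j hj
    have h3 : univ.sup (S0 T V m).lv + 1 + (X.tr k + o σ) < _ := hd.2
    rw [show o σ = τ from if_neg hσ] at h3
    obtain ⟨i | i, -, rfl⟩ := mem_image.1 hi
    · exact absurd (h3.trans (lv_lt (S := S0 T V m) (pa ρ i))) (by omega)
    · have h4 : o (ρ * sw t w i.1) = 0 := if_pos ⟨i.1, rfl⟩
      have h5 : _ < univ.sup (S0 T V m).lv + 1 + (X.tr i.2 + o (ρ * sw t w i.1)) := h3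
      have := hτ i.2
      omega

end

end Vale.Agent.P057RL
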